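import Vale.Agent.P048.Bdl.B1
import Mathlib.Combinatorics.SimpleGraph.Acyclic

/-!
P048: cycles of all lengths, and unicyclic graphs versus complete graphs.
-/

namespace Vale.Agent.N048

open Finset Vale.Agent.P048

variable {V : Type*}

theorem dg_split (G : SimpleGraph V) [DecidableEq V] (S C : Finset V) {v : V} (hv : v ∈ C) :
    dg G S v + 1 ≤ dg G (S \ C) v + C.card := by
  classical
  rw [dg_eq_filter, dg_eq_filter, ← card_erase_add_one hv, ← add_assoc]
  refine Nat.succ_le_succ ((card_le_card fun w hw => ?_).trans (card_union_le _ _))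
  rw [mem_filter] at hw
  rw [mem_union, mem_filter, mem_sdiff, mem_erase]
  by_cases h : w ∈ C
  · exact Or.inr ⟨hw.2.ne', h⟩
  · exact Or.inl ⟨⟨hw.1, h⟩, hw.2⟩

/-- minimum degree `δ` and independence number `a` give all cycles of length `≤ δ - a + 2` -/
theorem cyc_of_deg (G : SimpleGraph V) (S : Finset V) (hS : ∀ a b, G.Adj a b → a ∈ S) (a δ : ℕ)
    (hne : S.Nonempty) (hdeg : ∀ v ∈ S, δ ≤ dg G S v) (hal : AlLe G S a) :
    ∀ k, 2 ≤ k → k + a ≤ δ + 2 → HasC G k := by
  classical
  intro k
  induction k using Nat.strong_induction_on with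
  | _ k ih =>
    intro hk2 hkm
    obtain ⟨v, hv⟩ := hne
    have hδv := hdeg v hv
    rw [dg_eq_filter] at hδv
    have ha : 1 ≤ a := by simpa using hal {v} (by simpa using hv) (ind_single3 v)
    by_contra hno
    rcases Nat.lt_or_ge k 4 with h4 | h4
    · obtain ⟨u, hu⟩ : (S.filter (G.Adj v)).Nonempty := by
        rw [← Finset.card_pos]
        omega
      have hvu := (Finset.mem_filter.1 hu).2
      rcases Nat.lt_or_ge k 3 with h3 | h3
      · obtain rfl : k = 2 := by omega
        exact hno (cycle_of_nbhd (v := v) (u := u) (p := []) ⟨by simp, by simp⟩ (by simpa using hvu))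
      · obtain rfl : k = 3 := by omega
        have hJ := hal (S.filter (G.Adj v)) (Finset.filter_subset _ _) (by
          intro p hp q hq hpq
          apply hno
          rw [Finset.mem_filter] at hp hq
          exact cycle_of_nbhd (v := v) (u := p) (p := [q])
            ⟨by simpa using hpq, by simp [hpq.ne]⟩ (by
              intro w hw
              simp only [List.mem_cons, List.not_mem_nil, or_false] at hw
              rcases hw with h | h
              · rw [h]; exact hp.2
              · rw [h]; exact hq.2))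
        omega
    obtain ⟨n, rfl⟩ : ∃ n, k = n + 2 := ⟨k - 2, by omega⟩
    obtain ⟨l, hlen, hl⟩ := ih n (by omega) (by omega) (by omega)
    have hn1 : 1 ≤ l.length := by omega
    have hlS : ∀ v ∈ l, v ∈ S := hl.mem_of_adj hS hn1
    obtain ⟨x, hx, hxl⟩ := IsC.exists_isF G l hl hn1
    rw [hlen] at hx hxl
    have hxmem : ∀ i, x i ∈ l := by
      intro i
      rw [← hx.mod i]
      exact (hxl _).2 ⟨i % n, Nat.mod_lt _ (by omega), rfl⟩
    obtain ⟨J, hJ, hJi, hJc⟩ := LB G n (by omega) x hx (S \ l.toFinset)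
      (fun i hi => (Finset.mem_sdiff.1 hi).2 (List.mem_toFinset.2 (hxmem i))) hno
    have hJa : J.card ≤ a := hal J (hJ.trans Finset.sdiff_subset) hJi
    have hC : l.toFinset.card = n := by rw [List.toFinset_card_of_nodup hl.2.1, hlen]
    have h1 : ∑ _i ∈ range n, (a + 1) ≤ ∑ i ∈ range n, dg G (S \ l.toFinset) (x i) :=
      sum_le_sum fun i _ => by
        have h2 := dg_split G S l.toFinset (List.mem_toFinset.2 (hxmem i))
        have h3 := hdeg _ (hlS _ (hxmem i))
        omega
    rw [sum_const, card_range, smul_eq_mul] at h1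
    have h2 := Nat.mul_le_mul_left n hJa
    have h3 : n * (a + 1) = n * a + n := by ring
    omega

theorem dg_GR (G : SimpleGraph V) (W : Finset V) {v : V} (hv : v ∈ W) :
    dg (GR G W) W v = dg G W v := by
  classical
  rw [dg_eq_filter, dg_eq_filter]
  exact congrArg _ (filter_congr fun w hw => ⟨fun h => h.2.2, fun h => ⟨hv, hw, h⟩⟩)

theorem alLe_GR {G : SimpleGraph V} {W : Finset V} {a : ℕ} (h : AlLe G W a) :
    AlLe (GR G W) W a := fun I hI hi =>
  h I hI fun u hu v hv huv => hi u hu v hv ⟨hI hu, hI hv, huv⟩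

/-- removing a vertex of small degree -/
theorem step {k a N : ℕ} (hk : 2 ≤ k)
    (ih : ∀ (G : SimpleGraph V) (W : Finset V), AlLe G W a → N + 1 ≤ W.card → HasC G k)
    (G : SimpleGraph V) (W : Finset V) (hal : AlLe G W (a + 1))
    (hW : N + (a + k - 1) + 1 ≤ W.card) : HasC G k := by
  classical
  by_cases h : ∀ v ∈ W, a + k - 1 ≤ dg G W v
  · refine HasC.mono (G := GR G W) (fun _ _ h => h.2.2) (cyc_of_deg (GR G W) W (fun _ _ h => h.1)
      (a + 1) (a + k - 1) (card_pos.1 (by omega)) (fun v hv => ?_) (alLe_GR hal) k hk (by omega))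
    rw [dg_GR G W hv]
    exact h v hv
  · push Not at h
    obtain ⟨v, hv, hd⟩ := h
    rw [dg_eq_filter] at hd
    refine ih G (W \ insert v (W.filter (G.Adj v))) (fun I hI hi => ?_) ?_
    · have h1 : ∀ w ∈ I, w ∈ W ∧ w ≠ v ∧ ¬ G.Adj v w := fun w hw => by
        have h2 := mem_sdiff.1 (hI hw)
        rw [mem_insert, mem_filter, not_or] at h2
        exact ⟨h2.1, h2.2.1, fun h3 => h2.2.2 ⟨h2.1, h3⟩⟩
      have h2 := hal (insert v I) (insert_subset hv fun w hw => (h1 w hw).1)
        (ind_insert3 hi fun w hw => (h1 w hw).2.2)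
      rw [card_insert_of_notMem fun h3 => (h1 v h3).2.1 rfl] at h2
      omega
    · have h1 := le_card_sdiff (insert v (W.filter (G.Adj v))) W
      have h2 := card_insert_le v (W.filter (G.Adj v))
      omega

/-- the bound below the diagonal -/
theorem beyond {M : ℕ} (hM : 3 ≤ M) (d : ℕ) : ∀ (N : ℕ), 2 * M * M + 4 * M * d + d * d ≤ 2 * N + d →
    ∀ (G : SimpleGraph V) (W : Finset V), AlLe G W (M + d) → N + 1 ≤ W.card → HasC G (M + 1) := by
  induction d with
  | zero =>
    intro N hN G W hal hW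
    exact upper_all G W M M hM le_rfl hal (by nlinarith)
  | succ d ih =>
    intro N hN G W hal hW
    have h1 : 2 * M + d ≤ N := by nlinarith
    obtain ⟨N', rfl⟩ := Nat.exists_eq_add_of_le' h1
    exact step (a := M + d) (N := N') (by omega) (ih N' (by nlinarith)) G W hal (by omega)

/-- the bound for triangles -/
theorem tri (a : ℕ) : ∀ (N : ℕ), a * a + 3 * a ≤ 2 * N →
    ∀ (G : SimpleGraph V) (W : Finset V), AlLe G W a → N + 1 ≤ W.card → HasC G 3 := by
  induction a with
  | zero =>
    intro N _ G W hal hW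
    obtain ⟨v, hv⟩ : W.Nonempty := card_pos.1 (by omega)
    simpa using hal {v} (by simpa using hv) (ind_single3 v)
  | succ a ih =>
    intro N hN G W hal hW
    have h1 : a + 2 ≤ N := by nlinarith
    obtain ⟨N', rfl⟩ := Nat.exists_eq_add_of_le' h1
    exact step (a := a) (N := N') (by omega) (ih N' (by nlinarith)) G W hal (by omega)

theorem cyc_all {M e a : ℕ} (hM : 2 ≤ M) (hc : a * a + M ≤ M * M + 2 * e * a + a)
    (hex : ¬ (M = 2 ∧ e = 0 ∧ a = 2)) {j : ℕ} (hj : j ≤ a) (G : SimpleGraph V) (W : Finset V)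
    (hal : AlLe G W j) (hW : (M + e) * j + 1 ≤ W.card) : HasC G (M + 1) := by
  rcases hM.eq_or_lt with rfl | hM
  · refine tri j _ ?_ G W hal hW
    have h1 : a ≤ 2 * e + 1 := by
      by_contra h
      have h2 : a * (2 * e + 2) ≤ a * a := Nat.mul_le_mul_left _ (by omega)
      have h3 : a ≤ 2 := by nlinarith
      omega
    nlinarith
  · rcases le_total j M with h | h
    · exact upper_all G W M j hM h hal (by nlinarith)
    · obtain ⟨d, rfl⟩ := Nat.exists_eq_add_of_le h
      obtain ⟨d', rfl⟩ := Nat.exists_eq_add_of_le (h.trans hj)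
      refine beyond hM d _ ?_ G W hal hW
      have h1 : d ≤ d' := by omega
      rcases le_total (d + 2 * M) (2 * e + 1) with h2 | h2
      · nlinarith [Nat.mul_le_mul_left d h2]
      · obtain ⟨t, ht⟩ := Nat.exists_eq_add_of_le h2
        obtain ⟨s, rfl⟩ := Nat.exists_eq_add_of_le h1
        nlinarith [Nat.zero_le (s * t), Nat.zero_le (s * s), Nat.zero_le (s * d)]

/-! ### growing a connected graph from its cycle -/

section Grow

variable {U : Type*} [Fintype U] [DecidableEq U] (H : SimpleGraph U)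

/-- twice the number of edges inside `A` -/
noncomputable def e2 (A : Finset U) : ℕ := ∑ u ∈ A, dg H A u

omit [Fintype U] in
theorem e2_insert {A : Finset U} {v : U} (hv : v ∉ A) :
    e2 H (insert v A) = e2 H A + 2 * dg H A v := by
  classical
  have h1 : ∀ u, dg H (insert v A) u = dg H A u + if H.Adj u v then 1 else 0 := fun u => by
    rw [dg_eq_filter, dg_eq_filter, filter_insert]
    split_ifs
    · rw [card_insert_of_notMem fun h => hv (mem_filter.1 h).1]
    · rfl
  rw [e2, sum_insert hv, h1, if_neg (H.loopless.irrefl v)]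
  simp only [h1, sum_add_distrib]
  rw [← card_filter, dg_eq_filter H A v, e2,
    filter_congr (q := H.Adj v) fun u _ => H.adj_comm u v]
  ring

omit [DecidableEq U] in
theorem exists_out (hc : H.Connected) {A : Finset U} (hA : A.Nonempty)
    (hlt : A.card < Fintype.card U) : ∃ v ∉ A, ∃ u ∈ A, H.Adj v u := by
  obtain ⟨u, hu⟩ := hA
  obtain ⟨w, -, hw⟩ := exists_mem_notMem_of_card_lt_card (s := A) (t := univ) (by simpa using hlt)
  obtain ⟨p⟩ := hc.preconnected u w
  obtain ⟨d, -, h1, h2⟩ := p.exists_boundary_dart (A : Set U) hu hw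
  exact ⟨d.snd, h2, d.fst, h1, d.adj.symm⟩

omit [Fintype U] [DecidableEq U] in
theorem dg_pos {A : Finset U} {u v : U} (hu : u ∈ A) (h : H.Adj v u) : 1 ≤ dg H A v := by
  classical
  rw [dg_eq_filter]
  exact card_pos.2 ⟨u, mem_filter.2 ⟨hu, h⟩⟩

theorem e2_le (hc : H.Connected) (r : ℕ) : ∀ A : Finset U, A.Nonempty →
    A.card + r = Fintype.card U → e2 H A + 2 * r ≤ e2 H univ := by
  induction r with
  | zero =>
    intro A _ h
    rw [eq_univ_of_card A h]
    simp
  | succ r ih =>
    intro A hA h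
    obtain ⟨v, hv, u, hu, huv⟩ := exists_out H hc hA (by omega)
    have h1 := ih (insert v A) (insert_nonempty _ _) (by rw [card_insert_of_notMem hv]; omega)
    have h2 := dg_pos H hu huv
    rw [e2_insert H hv] at h1
    omega

omit [DecidableEq U] in
theorem e2_univ : e2 H univ = 2 * Nat.card H.edgeSet := by
  classical
  rw [Nat.card_eq_fintype_card, ← SimpleGraph.edgeFinset_card,
    ← SimpleGraph.sum_degrees_eq_twice_card_edges, e2]
  refine sum_congr rfl fun u _ => ?_
  rw [dg_eq_filter, ← SimpleGraph.card_neighborFinset_eq_degree,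
    SimpleGraph.neighborFinset_eq_filter]

theorem grow (hc : H.Connected) (he : Nat.card H.edgeSet = Fintype.card U) (G : SimpleGraph V)
    (S : Finset V) (hdeg : ∀ v ∈ S, Fintype.card U ≤ dg G S v + 1) (r : ℕ) :
    ∀ A : Finset U, A.Nonempty → A.card + r = Fintype.card U → 2 * A.card ≤ e2 H A →
      ∀ f : U → V, Set.InjOn f A → (∀ u ∈ A, f u ∈ S) →
        (∀ u ∈ A, ∀ v ∈ A, H.Adj u v → G.Adj (f u) (f v)) → H.IsContained G := by
  classical
  induction r with
  | zero =>
    intro A _ h _ f h1 _ h3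
    rw [eq_univ_of_card A h] at h1 h3
    exact ⟨⟨⟨f, fun h => h3 _ (mem_univ _) _ (mem_univ _) h⟩,
      fun u v h => h1 (by simp) (by simp) h⟩⟩
  | succ r ih =>
    intro A hA h h0 f h1 h2 h3
    obtain ⟨v, hv, u, hu, huv⟩ := exists_out H hc hA (by omega)
    have c1 : (insert v A).card + r = Fintype.card U := by rw [card_insert_of_notMem hv]; omega
    have c2 := e2_le H hc r (insert v A) (insert_nonempty _ _) c1
    have c3 := dg_pos H hu huv
    rw [e2_insert H hv, e2_univ, he] at c2
    have c4 : ∀ w ∈ A, H.Adj v w → w = u := fun w hw hvw => by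
      have c5 : dg H A v ≤ 1 := by omega
      rw [dg_eq_filter] at c5
      exact card_le_one.1 c5 w (mem_filter.2 ⟨hw, hvw⟩) u (mem_filter.2 ⟨hu, huv⟩)
    obtain ⟨w, hw, hw'⟩ := exists_mem_notMem_of_card_lt_card (s := (A.erase u).image f)
      (t := S.filter (G.Adj (f u))) (by
        have c5 := hdeg _ (h2 u hu)
        have c6 := card_image_le (s := A.erase u) (f := f)
        have c7 := card_erase_add_one hu
        rw [dg_eq_filter] at c5
        omega)
    rw [mem_filter] at hw
    have c5 : ∀ z ∈ A, f z ≠ w := fun z hz e => by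
      by_cases hzu : z = u
      · rw [hzu] at e
        exact hw.2.ne e
      · exact hw' (mem_image.2 ⟨z, mem_erase.2 ⟨hzu, hz⟩, e⟩)
    have c6 : ∀ z ∈ A, Function.update f v w z = f z := fun z hz =>
      Function.update_of_ne (fun e : z = v => hv (e ▸ hz)) _ _
    refine ih (insert v A) (insert_nonempty _ _) c1
      (by rw [e2_insert H hv, card_insert_of_notMem hv]; omega) (Function.update f v w) ?_ ?_ ?_
    · intro y hy z hz e
      rw [coe_insert, Set.mem_insert_iff, mem_coe] at hy hz
      rcases hy with rfl | hy <;> rcases hz with rfl | hz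
      · rfl
      · rw [Function.update_self, c6 z hz] at e
        exact absurd e.symm (c5 z hz)
      · rw [Function.update_self, c6 y hy] at e
        exact absurd e (c5 y hy)
      · rw [c6 y hy, c6 z hz] at e
        exact h1 hy hz e
    · intro z hz
      rcases mem_insert.1 hz with rfl | hz
      · rw [Function.update_self]
        exact hw.1
      · rw [c6 z hz]
        exact h2 z hz
    · intro y hy z hz e
      rw [mem_insert] at hy hz
      rcases hy with rfl | hy <;> rcases hz with rfl | hz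
      · exact absurd e (H.loopless.irrefl _)
      · rw [Function.update_self, c6 z hz, c4 z hz e]
        exact hw.2.symm
      · rw [Function.update_self, c6 y hy, c4 y hy e.symm]
        exact hw.2
      · rw [c6 y hy, c6 z hz]
        exact h3 y hy z hz e

/-- a graph of large minimum degree with a cycle of the right length contains the unicyclic graph -/
theorem embed (hc : H.Connected) (he : Nat.card H.edgeSet = Fintype.card U) {k : ℕ}
    (c : (SimpleGraph.cycleGraph (k + 3)).Copy H) (G : SimpleGraph V) (S : Finset V)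
    (hS : ∀ a b, G.Adj a b → a ∈ S) (hdeg : ∀ v ∈ S, Fintype.card U ≤ dg G S v + 1)
    (d : (SimpleGraph.cycleGraph (k + 3)).Copy G) : H.IsContained G := by
  classical
  have ci : Function.Injective c := c.injective
  obtain ⟨A, hA⟩ : ∃ A : Finset U, A = univ.image c := ⟨_, rfl⟩
  have hAm : ∀ i, c i ∈ A := fun i => hA ▸ mem_image_of_mem _ (mem_univ i)
  have hAc : A.card = k + 3 := by rw [hA, card_image_of_injective _ ci, card_univ, Fintype.card_fin]
  have hne : A.Nonempty := ⟨c 0, hAm 0⟩
  obtain ⟨r, hr⟩ := Nat.exists_eq_add_of_le (card_le_univ A)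
  have s1 : ∀ i, ((SimpleGraph.cycleGraph (k + 3)).neighborFinset i).image c ⊆
      A.filter (H.Adj (c i)) := fun i u hu => by
    obtain ⟨j, hj, rfl⟩ := mem_image.1 hu
    exact mem_filter.2 ⟨hAm j, c.toHom.map_adj ((SimpleGraph.mem_neighborFinset _ _ _).1 hj)⟩
  have s2 : ∀ i, (((SimpleGraph.cycleGraph (k + 3)).neighborFinset i).image c).card = 2 :=
    fun i => by
      rw [card_image_of_injective _ ci, SimpleGraph.card_neighborFinset_eq_degree,
        SimpleGraph.cycleGraph_degree_three_le]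
  have s3 : ∀ u ∈ A, 2 ≤ dg H A u := fun u hu => by
    rw [hA] at hu
    obtain ⟨i, -, rfl⟩ := mem_image.1 hu
    rw [dg_eq_filter, ← s2 i]
    exact card_le_card (s1 i)
  have s4 : 2 * A.card ≤ e2 H A := by
    rw [mul_comm, ← smul_eq_mul, ← sum_const]
    exact sum_le_sum s3
  have s5 : e2 H A ≤ 2 * A.card := by
    have := e2_le H hc r A hne hr.symm
    rw [e2_univ, he] at this
    omega
  have s6 : ∀ u ∈ A, dg H A u ≤ 2 := fun u hu => by
    by_contra h
    have := sum_lt_sum s3 ⟨u, hu, not_le.1 h⟩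
    rw [sum_const, smul_eq_mul] at this
    unfold e2 at s5
    omega
  have s7 : ∀ i j, H.Adj (c i) (c j) → (SimpleGraph.cycleGraph (k + 3)).Adj i j := fun i j h => by
    have h1 := eq_of_subset_of_card_le (s1 i) (by rw [s2, ← dg_eq_filter]; exact s6 _ (hAm i))
    have h2 : c j ∈ A.filter (H.Adj (c i)) := mem_filter.2 ⟨hAm j, h⟩
    rw [← h1] at h2
    obtain ⟨j', hj', e⟩ := mem_image.1 h2
    rw [← ci e]
    exact (SimpleGraph.mem_neighborFinset _ _ _).1 hj'
  have s8 : ∀ i, Function.extend c d (fun _ => d 0) (c i) = d i := fun i => ci.extend_apply _ _ i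
  refine grow H hc he G S hdeg r A hne hr.symm s4 (Function.extend c d fun _ => d 0) ?_ ?_ ?_
  · intro u hu v hv e
    rw [mem_coe, hA] at hu hv
    obtain ⟨i, -, rfl⟩ := mem_image.1 hu
    obtain ⟨j, -, rfl⟩ := mem_image.1 hv
    rw [s8, s8] at e
    rw [d.injective e]
  · intro u hu
    rw [hA] at hu
    obtain ⟨i, -, rfl⟩ := mem_image.1 hu
    rw [s8]
    exact hS _ (d (i + 1)) (d.toHom.map_adj (SimpleGraph.cycleGraph_adj.2 (Or.inr (by simp))))
  · intro u hu v hv e
    rw [hA] at hu hv
    obtain ⟨i, -, rfl⟩ := mem_image.1 hu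
    obtain ⟨j, -, rfl⟩ := mem_image.1 hv
    rw [s8, s8]
    exact d.toHom.map_adj (s7 i j e)

end Grow

theorem alLe_of {N n : ℕ} (hn : 1 ≤ n) {G : SimpleGraph (Fin N)}
    (h : ¬ ∃ s : Finset (Fin N), G.IsNIndepSet n s) : AlLe G univ (n - 1) := by
  intro I _ hI
  by_contra hlt
  obtain ⟨J, hJ, hc⟩ := Finset.exists_subset_card_eq (s := I) (n := n) (by omega)
  exact h ⟨J, fun u hu v hv _ huv => hI u (hJ hu) v (hJ hv) huv, hc⟩

/-- the lower bound for connected graphs -/
theorem lower_conn {m n N : ℕ} (hm : 2 ≤ m) (hn : 1 ≤ n) (H : SimpleGraph (Fin m))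
    (hc : H.Connected) (hN : ∀ G : SimpleGraph (Fin N),
      H.IsContained G ∨ ∃ s : Finset (Fin N), G.IsNIndepSet n s) : (m - 1) * (n - 1) + 1 ≤ N := by
  classical
  by_contra hlt
  have hpos : 0 < m - 1 := by omega
  let G : SimpleGraph (Fin N) :=
    { Adj := fun i j => i ≠ j ∧ i.val / (m - 1) = j.val / (m - 1)
      symm := ⟨fun i j h => ⟨h.1.symm, h.2.symm⟩⟩
      loopless := ⟨fun i h => h.1 rfl⟩ }
  rcases hN G with ⟨⟨f⟩⟩ | ⟨s, hs⟩
  · have hconst : ∀ u v : Fin m, (f u).val / (m - 1) = (f v).val / (m - 1) := by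
      intro u v
      obtain ⟨p⟩ := hc.preconnected u v
      induction p with
      | nil => rfl
      | cons h _ ih => exact (f.toHom.map_adj h).2.trans ih
    have h1 : (univ : Finset (Fin m)).card ≤ (range (m - 1)).card := by
      refine card_le_card_of_injOn (fun u => (f u).val % (m - 1))
        (fun u _ => mem_coe.2 (mem_range.2 (Nat.mod_lt _ hpos))) fun u _ v _ e => ?_
      refine f.injective (Fin.ext ?_)
      have h1 := Nat.div_add_mod (f u).val (m - 1)
      have h2 := Nat.div_add_mod (f v).val (m - 1)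
      rw [hconst u v] at h1
      simp only at e
      exact h1.symm.trans (by rw [e]; exact h2)
    rw [card_univ, Fintype.card_fin, card_range] at h1
    omega
  · have h1 : s.card ≤ (range (n - 1)).card := by
      refine card_le_card_of_injOn (fun i => i.val / (m - 1)) (fun i _ => ?_) fun i hi j hj e => ?_
      · rw [mem_coe, mem_range]
        exact Nat.div_lt_of_lt_mul (by have := i.isLt; omega)
      · by_contra hne
        exact hs.isIndepSet hi hj hne ⟨hne, e⟩
    rw [hs.card_eq, card_range] at h1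
    omega

theorem le_of_copy {k m : ℕ} {H : SimpleGraph (Fin m)}
    (h : (SimpleGraph.cycleGraph k).IsContained H) : k ≤ m := by
  obtain ⟨c⟩ := h
  simpa using Fintype.card_le_of_injective c c.injective

/-- unicyclic graphs versus complete graphs -/
theorem unicyclic {m n k : ℕ} (hk : 3 ≤ k) (hn : 1 ≤ n) (H : SimpleGraph (Fin m))
    (hc : H.Connected) (he : Nat.card H.edgeSet = m)
    (hH : (SimpleGraph.cycleGraph k).IsContained H)
    (hr : (n - 1) * (n - 2) ≤ (k - 1) * (k - 2) + 2 * (m - k) * (n - 1))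
    (hex : ¬ (m = 3 ∧ n = 3)) :
    IsLeast {N : ℕ | ∀ G : SimpleGraph (Fin N),
      H.IsContained G ∨ ∃ s : Finset (Fin N), G.IsNIndepSet n s} ((m - 1) * (n - 1) + 1) := by
  classical
  have hkm := le_of_copy hH
  refine ⟨fun G => ?_, fun N hN => lower_conn (by omega) hn H hc hN⟩
  refine or_iff_not_imp_right.2 fun h => ?_
  obtain ⟨W, -, j, hj, h1, h2, h3⟩ := exists_expd G (m - 1) _ univ (n - 1) le_rfl (alLe_of hn h)
    (by rw [card_univ, Fintype.card_fin])
  obtain ⟨k, rfl⟩ := Nat.exists_eq_add_of_le' hk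
  obtain ⟨e, rfl⟩ := Nat.exists_eq_add_of_le hkm
  obtain ⟨a, rfl⟩ := Nat.exists_eq_add_of_le' hn
  have h4 : HasC (GR G W) (k + 2 + 1) := by
    refine cyc_all (M := k + 2) (e := e) (a := a) (by omega) ?_ (by omega) hj _ W (alLe_GR h1)
      (le_of_eq_of_le (by congr 2; omega) h2)
    rcases a with _ | a
    · nlinarith
    · have e1 : a + 1 + 1 - 2 = a := by omega
      have e2 : k + 3 - 1 = k + 2 := by omega
      have e3 : k + 3 - 2 = k + 1 := by omega
      rw [Nat.add_sub_cancel, e1, e2, e3, Nat.add_sub_cancel_left] at hr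
      nlinarith
  obtain ⟨d⟩ := (hasC_iff _ _ (by omega)).1 h4
  obtain ⟨c⟩ := hH
  refine (embed H hc (by rw [he, Fintype.card_fin]) c (GR G W) W (fun _ _ h => h.1)
    (fun v hv => ?_) d).trans (SimpleGraph.IsContained.of_le fun _ _ h => h.2.2)
  have h5 := h3.deg hv
  rw [dg_GR G W hv, Fintype.card_fin]
  omega

theorem range_ok {m n k : ℕ} (hk : 3 ≤ k) (hkm : k ≤ m) (hnm : n ≤ m) :
    (n - 1) * (n - 2) ≤ (k - 1) * (k - 2) + 2 * (m - k) * (n - 1) := by
  rcases le_total n k with h | h
  · exact (Nat.mul_le_mul (by omega) (by omega)).trans (Nat.le_add_right _ _)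
  · obtain ⟨k, rfl⟩ := Nat.exists_eq_add_of_le' hk
    obtain ⟨d, rfl⟩ := Nat.exists_eq_add_of_le h
    obtain ⟨s, rfl⟩ := Nat.exists_eq_add_of_le hnm
    have e1 : k + 3 + d - 1 = k + 2 + d := by omega
    have e2 : k + 3 + d - 2 = k + 1 + d := by omega
    have e3 : k + 3 - 1 = k + 2 := by omega
    have e4 : k + 3 - 2 = k + 1 := by omega
    have e5 : k + 3 + d + s - (k + 3) = d + s := by omega
    rw [e1, e2, e3, e4, e5]
    nlinarith [Nat.zero_le (s * k), Nat.zero_le (s * d), Nat.zero_le (d * d)]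

theorem exists_cycle {m : ℕ} (H : SimpleGraph (Fin m)) (hc : H.Connected)
    (he : Nat.card H.edgeSet = m) : ∃ k, 3 ≤ k ∧ (SimpleGraph.cycleGraph k).IsContained H := by
  by_contra h
  have h1 : H.IsTree :=
    ⟨hc, SimpleGraph.isAcyclic_iff_free_cycleGraph.2 fun k hk h1 => h ⟨k, hk, h1⟩⟩
  have h2 := (SimpleGraph.isTree_iff_connected_and_card.1 h1).2
  rw [he, Nat.card_eq_fintype_card, Fintype.card_fin] at h2
  omega

theorem unicyclic_iff {m n : ℕ} (hn : 3 ≤ n) (hnm : n ≤ m) (H : SimpleGraph (Fin m))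
    (hc : H.Connected) (he : Nat.card H.edgeSet = m) :
    IsLeast {N : ℕ | ∀ G : SimpleGraph (Fin N),
      H.IsContained G ∨ ∃ s : Finset (Fin N), G.IsNIndepSet n s} ((m - 1) * (n - 1) + 1) ↔
      ¬ (m = 3 ∧ n = 3) := by
  obtain ⟨k, hk, hH⟩ := exists_cycle H hc he
  have hkm := le_of_copy hH
  refine ⟨?_, unicyclic hk (by omega) H hc he hH (range_ok hk hkm hnm)⟩
  rintro h ⟨rfl, rfl⟩
  obtain rfl : k = 3 := by omega
  rcases h.1 (SimpleGraph.cycleGraph 5) with h1 | h1
  · exact not_contained_three (hH.trans h1)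
  · exact not_indep_three h1

/-- cycles of all lengths -/
theorem pancyclic {m n : ℕ} (hn : 3 ≤ n) (hnm : n ≤ m) (hex : ¬ (m = 3 ∧ n = 3))
    (G : SimpleGraph (Fin ((m - 1) * (n - 1) + 1))) :
    (∀ k, 3 ≤ k → k ≤ m → (SimpleGraph.cycleGraph k).IsContained G) ∨
      ∃ s : Finset (Fin ((m - 1) * (n - 1) + 1)), G.IsNIndepSet n s := by
  refine or_iff_not_imp_right.2 fun h k hk hkm => ?_
  have hr := range_ok hk hkm hnm
  have hal := alLe_of (by omega) h
  rw [← hasC_iff _ _ hk]
  obtain ⟨k, rfl⟩ := Nat.exists_eq_add_of_le' hk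
  obtain ⟨e, rfl⟩ := Nat.exists_eq_add_of_le hkm
  obtain ⟨a, rfl⟩ := Nat.exists_eq_add_of_le' hn
  refine cyc_all (M := k + 2) (e := e) (a := a + 2) (by omega) ?_ (by omega) le_rfl G univ hal ?_
  · have e1 : a + 3 - 2 = a + 1 := by omega
    have e2 : k + 3 - 1 = k + 2 := by omega
    have e3 : k + 3 - 2 = k + 1 := by omega
    have e4 : a + 3 - 1 = a + 2 := by omega
    rw [e1, e2, e3, e4, Nat.add_sub_cancel_left] at hr
    nlinarith
  · rw [card_univ, Fintype.card_fin]
    exact le_of_eq (by congr 2; omega)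

/-- cycles from the minimum degree and the independence number -/
theorem deg_alpha {N : ℕ} (G : SimpleGraph (Fin N)) [DecidableRel G.Adj] {k : ℕ} (hk : 3 ≤ k)
    (h : k + G.indepNum ≤ G.minDegree + 2) : (SimpleGraph.cycleGraph k).IsContained G := by
  rw [← hasC_iff _ _ hk]
  rcases Nat.eq_zero_or_pos N with rfl | hN
  · have : G.minDegree = 0 := by simp [SimpleGraph.minDegree]
    omega
  refine cyc_of_deg G univ (fun _ _ _ => mem_univ _) G.indepNum G.minDegree
    ⟨⟨0, hN⟩, mem_univ _⟩ (fun v _ => ?_) (fun I _ hI => ?_) k (by omega) h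
  · rw [dg_eq_filter, ← SimpleGraph.neighborFinset_eq_filter,
      SimpleGraph.card_neighborFinset_eq_degree]
    exact G.minDegree_le_degree v
  · exact SimpleGraph.IsIndepSet.card_le_indepNum fun u hu v hv _ huv => hI u hu v hv huv

/-- an explicit upper bound below the diagonal -/
theorem below {m n : ℕ} (hm : 4 ≤ m) (hmn : m ≤ n)
    (G : SimpleGraph (Fin ((m - 1) * (n - 1) + 1 + ((n - 1).choose 2 - (m - 1).choose 2)))) :
    (SimpleGraph.cycleGraph m).IsContained G ∨ ∃ s, G.IsNIndepSet n s := by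
  refine or_iff_not_imp_right.2 fun h => ?_
  have hal := alLe_of (by omega) h
  rw [← hasC_iff _ _ (by omega)]
  obtain ⟨M, rfl⟩ : ∃ M, m = M + 1 := ⟨m - 1, by omega⟩
  obtain ⟨d, rfl⟩ := Nat.exists_eq_add_of_le hmn
  have e1 : M + 1 + d - 1 = M + d := by omega
  have e0 : ∀ d : ℕ, 2 * d.choose 2 + d = d * d := fun d => by
    induction d with
    | zero => rfl
    | succ d ih =>
      rw [Nat.choose_succ_succ' d 1, Nat.choose_one_right]
      nlinarith
  have e2 : (M + d).choose 2 = M.choose 2 + (M * d + d.choose 2) := by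
    nlinarith [e0 (M + d), e0 M, e0 d]
  have e3 := e0 d
  refine beyond (M := M) (by omega) d (M * (M + d) + (M * d + d.choose 2)) (by nlinarith) G univ
    (e1 ▸ hal) ?_
  rw [card_univ, Fintype.card_fin, Nat.add_sub_cancel, e1, e2, Nat.add_sub_cancel_left]
  omega

end Vale.Agent.N048
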